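import Vale.Agent.P017.R4.Defs2
import Vale.Agent.P017.R3.H224.S1
import Vale.Agent.P017.R3.H224.S2

/-!
# P017: dictionary for the even discriminants, generic part
-/

open Finset

namespace Vale.Agent.P017.R4.H224

open Vale.Agent.P017.R3
open Vale.Agent.P017.R3.H224
open Vale.Agent.P017.R2.H985 (bit PF Pat sym Mat cork)
open Vale.Agent.P017.R3.H285 (L15 res split RR split_fst split_snd mem_L15 card_L15 sum_res ok3 ok5
  free_mul)

/-! ### The model -/

theorem prob5_mem : ∀ (ε : List (ZMod 2)) (V : Type) [Fintype V] [DecidableEq V]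
    (M : Matrix V V (ZMod 2)) (μ st tw : V → ZMod 2),
    0 ≤ prob5 ε V M μ st tw ∧ prob5 ε V M μ st tw ≤ 1
  | [], V, _, _, M, μ, st, tw => by
    unfold prob5
    split_ifs <;> norm_num
  | e :: ε, V, _, _, M, μ, st, tw => by
    unfold prob5
    have h := fun (φ : V → ZMod 2) (w χ : ZMod 2) =>
      prob5_mem ε (Option V) (ext M (cl e tw φ) (φ + (e • μ + χ • st)) w) (extv μ e) (extv st 0)
        (extv tw 0)
    constructor
    · exact div_nonneg (sum_nonneg fun φ _ => sum_nonneg fun w _ => sum_nonneg fun χ _ =>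
        (h φ w χ).1) (by positivity)
    · rw [div_le_one (by positivity)]
      calc ∑ φ : V → ZMod 2, ∑ w : ZMod 2, ∑ χ : ZMod 2,
            prob5 ε (Option V) (ext M (cl e tw φ) (φ + (e • μ + χ • st)) w) (extv μ e) (extv st 0)
              (extv tw 0)
          ≤ ∑ φ : V → ZMod 2, ∑ w : ZMod 2, ∑ χ : ZMod 2, (1 : ℝ) :=
            sum_le_sum fun φ _ => sum_le_sum fun w _ => sum_le_sum fun χ _ => (h φ w χ).2
        _ = 2 ^ (Fintype.card V + 2) := by
            rw [sum_const, sum_const, sum_const, card_univ, card_univ, Fintype.card_fun, ZMod.card]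
            simp only [nsmul_eq_mul, mul_one]
            push_cast
            ring

theorem cl_comp {V V' : Type} (e : V ≃ V') (x : ZMod 2) (tw φ : V' → ZMod 2) :
    cl x tw φ ∘ e = cl x (tw ∘ e) (φ ∘ e) := rfl

theorem prob5_equiv : ∀ (ε : List (ZMod 2)) (V V' : Type) [Fintype V] [Fintype V']
    [DecidableEq V] [DecidableEq V'] (e : V ≃ V') (M : Matrix V' V' (ZMod 2))
    (μ st tw : V' → ZMod 2),
    prob5 ε V (M.submatrix e e) (μ ∘ e) (st ∘ e) (tw ∘ e) = prob5 ε V' M μ st tw
  | [], V, V', _, _, _, _, e, M, μ, st, tw => by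
    unfold prob5
    rw [ck_equiv]
  | x :: ε, V, V', _, _, _, _, e, M, μ, st, tw => by
    unfold prob5
    rw [Fintype.card_congr e]
    congr 1
    refine Fintype.sum_equiv (Equiv.arrowCongr e (Equiv.refl _)) _ _ fun φ => ?_
    refine sum_congr rfl fun w _ => sum_congr rfl fun χ _ => ?_
    rw [← prob5_equiv ε (Option V) (Option V') (Equiv.optionCongr e), ext_submatrix, extv_comp,
      extv_comp, extv_comp, cl_comp]
    have hφ : (Equiv.arrowCongr e (Equiv.refl (ZMod 2))) φ ∘ e = φ := by
      funext a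
      simp [Equiv.arrowCongr]
    congr 2
    · rw [hφ]
    · funext a
      simp [Equiv.arrowCongr]

theorem extv_zero {V : Type} : (extv (0 : V → ZMod 2) 0) = 0 := by
  funext a
  cases a <;> rfl

theorem cl_zero {V : Type} (e : ZMod 2) (φ : V → ZMod 2) : cl e 0 φ = φ := by
  funext a
  unfold cl
  rw [if_neg]
  exact zero_ne_one

theorem sum_const2 (x : ℝ) : ∑ _χ : ZMod 2, x = 2 * x := by
  rw [sum_const, card_univ, ZMod.card, nsmul_eq_mul]
  norm_num

theorem prob_eq5 : ∀ (ε : List (ZMod 2)) (V : Type) [Fintype V] [DecidableEq V]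
    (M : Matrix V V (ZMod 2)) (μ : V → ZMod 2), prob ε V M μ = prob5 ε V M μ 0 0
  | [], V, _, _, M, μ => by
    unfold prob prob5
    rfl
  | e :: ε, V, _, _, M, μ => by
    unfold prob prob5
    rw [extv_zero]
    simp only [cl_zero, smul_zero, add_zero, sum_const2, ← mul_sum]
    simp only [prob_eq5 ε (Option V)]
    rw [show Fintype.card V + 2 = Fintype.card V + 1 + 1 from rfl, pow_succ _ (_ + 1)]
    field_simp

theorem prob3_eq5 : ∀ (ε : List (ZMod 2)) (V : Type) [Fintype V] [DecidableEq V]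
    (M : Matrix V V (ZMod 2)) (μ tw : V → ZMod 2), prob3 ε V M μ tw = prob5 ε V M μ 0 tw
  | [], V, _, _, M, μ, tw => by
    unfold prob3 prob5
    rfl
  | e :: ε, V, _, _, M, μ, tw => by
    unfold prob3 prob5
    rw [extv_zero]
    simp only [smul_zero, add_zero, sum_const2, ← mul_sum]
    simp only [prob3_eq5 ε (Option V)]
    rw [show Fintype.card V + 2 = Fintype.card V + 1 + 1 from rfl, pow_succ _ (_ + 1)]
    field_simp

theorem prob2_eq5 : ∀ (ε : List (ZMod 2)) (V : Type) [Fintype V] [DecidableEq V]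
    (M : Matrix V V (ZMod 2)) (μ st : V → ZMod 2), prob2 ε V M μ st = prob5 ε V M μ st 0
  | [], V, _, _, M, μ, st => by
    unfold prob2 prob5
    rfl
  | e :: ε, V, _, _, M, μ, st => by
    unfold prob2 prob5
    rw [extv_zero]
    simp only [cl_zero, prob2_eq5 ε (Option V)]

/-! ### A new prime, abstractly -/

def up {A B : Type} (E : Option A ≃ B) : Option (Option A) ≃ Option B where
  toFun a := match a with
    | none => some (E none)
    | some none => none
    | some (some q) => some (E (some q))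
  invFun b := match b with
    | none => some none
    | some r => match E.symm r with
      | none => none
      | some q => some (some q)
  left_inv a := by
    match a with
    | none => simp only [Equiv.symm_apply_apply]
    | some none => rfl
    | some (some q) => simp only [Equiv.symm_apply_apply]
  right_inv b := by
    match b with
    | none => rfl
    | some r =>
      obtain ⟨a, rfl⟩ := E.surjective r
      match a with
      | none => simp only [Equiv.symm_apply_apply]
      | some q => simp only [Equiv.symm_apply_apply]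

theorem up_mat {A B : Type} (E : Option A ≃ B) {M : Matrix B B (ZMod 2)}
    {M0 : Matrix A A (ZMod 2)} {φ ψ : A → ZMod 2} {w : ZMod 2}
    (h : M.submatrix E E = ext M0 φ ψ w) (c r : B → ZMod 2) (x : ZMod 2) :
    (ext M c r x).submatrix (up E) (up E) =
      ext (ext M0 (fun a => c (E (some a))) (fun a => r (E (some a))) x) (extv φ (r (E none)))
        (extv ψ (c (E none))) w := by
  have h1 : ∀ a b : Option A, M (E a) (E b) = ext M0 φ ψ w a b := by
    intro a b
    rw [← h]
    rfl
  ext a b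
  match a, b with
  | none, none => exact h1 none none
  | none, some none => rfl
  | none, some (some q) => exact h1 none (some q)
  | some none, none => rfl
  | some none, some none => rfl
  | some none, some (some q) => rfl
  | some (some q), none => exact h1 (some q) none
  | some (some q), some none => rfl
  | some (some q), some (some q') => exact h1 (some q) (some q')

theorem up_vec {A B : Type} (E : Option A ≃ B) {μ : B → ZMod 2} {μ0 : A → ZMod 2} {e : ZMod 2}
    (h : μ ∘ E = extv μ0 e) (y : ZMod 2) : extv μ y ∘ up E = extv (extv μ0 y) e := by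
  funext a
  match a with
  | none => exact congrFun h none
  | some none => rfl
  | some (some q) => exact congrFun h (some q)

theorem sum_newE {A B : Type} [Fintype A] [DecidableEq A] [Fintype B] [DecidableEq B]
    (E : Option A ≃ B) (F : (A → ZMod 2) → ZMod 2 → ℝ) :
    ∑ u : B → ZMod 2, F (fun a => u (E (some a))) (u (E none)) = ∑ v : A → ZMod 2, ∑ w, F v w := by
  have h4 := Fintype.sum_equiv (Equiv.arrowCongr E.symm (Equiv.refl (ZMod 2)))
    (fun u : B → ZMod 2 => F (fun a => u (E (some a))) (u (E none)))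
    (fun u : Option A → ZMod 2 => F (fun a => u (some a)) (u none)) (fun u => rfl)
  rw [h4, sum_option]

noncomputable def HH {U V : Type} [Fintype U] [DecidableEq U] [Fintype V] [DecidableEq V]
    (ε : List (ZMod 2)) (e : ZMod 2) (M : (U → ZMod 2) → Matrix V V (ZMod 2))
    (μ st tw Φ : V → ZMod 2) (χ : ZMod 2) : ℝ :=
  avg (fun u : U → ZMod 2 => (∑ w : ZMod 2, prob5 ε (Option V)
    (ext (M u) (cl e tw Φ) (Φ + (e • μ + χ • st)) w) (extv μ e) (extv st 0) (extv tw 0)) / 2)

theorem HH_nonneg {U V : Type} [Fintype U] [DecidableEq U] [Fintype V] [DecidableEq V]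
    (ε : List (ZMod 2)) (e : ZMod 2) (M : (U → ZMod 2) → Matrix V V (ZMod 2))
    (μ st tw Φ : V → ZMod 2) (χ : ZMod 2) : 0 ≤ HH ε e M μ st tw Φ χ := by
  unfold HH avg
  exact div_nonneg (sum_nonneg fun u _ => div_nonneg (sum_nonneg fun w _ =>
    (prob5_mem _ _ _ _ _ _).1) (by norm_num)) (by positivity)

theorem HH_sum {U V : Type} [Fintype U] [DecidableEq U] [Fintype V] [DecidableEq V]
    (ε : List (ZMod 2)) (e : ZMod 2) (M : (U → ZMod 2) → Matrix V V (ZMod 2))
    (μ st tw : V → ZMod 2) : ∑ Φ : V → ZMod 2, ∑ χ : ZMod 2, HH ε e M μ st tw Φ χ =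
      2 ^ (Fintype.card V + 1) * avg (fun u : U → ZMod 2 => prob5 (e :: ε) V (M u) μ st tw) := by
  unfold HH avg
  have h1 : ∀ u : U → ZMod 2, ∑ Φ : V → ZMod 2, ∑ χ : ZMod 2,
      (∑ w : ZMod 2, prob5 ε (Option V)
        (ext (M u) (cl e tw Φ) (Φ + (e • μ + χ • st)) w) (extv μ e) (extv st 0) (extv tw 0)) / 2 =
      2 ^ (Fintype.card V + 1) * prob5 (e :: ε) V (M u) μ st tw := by
    intro u
    rw [prob5]
    have h2 : ∀ Φ : V → ZMod 2, ∑ χ : ZMod 2,
        (∑ w : ZMod 2, prob5 ε (Option V)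
          (ext (M u) (cl e tw Φ) (Φ + (e • μ + χ • st)) w) (extv μ e) (extv st 0) (extv tw 0)) / 2
        = (∑ w : ZMod 2, ∑ χ : ZMod 2, prob5 ε (Option V)
          (ext (M u) (cl e tw Φ) (Φ + (e • μ + χ • st)) w) (extv μ e) (extv st 0) (extv tw 0)) / 2
        := by
      intro Φ
      rw [← sum_div, sum_comm]
    rw [sum_congr rfl fun Φ _ => h2 Φ, ← sum_div,
      show Fintype.card V + 2 = Fintype.card V + 1 + 1 from rfl, pow_succ _ (_ + 1)]
    field_simp
  simp only [← sum_div]
  rw [← mul_div_assoc, mul_sum, ← sum_congr rfl fun u _ => h1 u]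
  congr 1
  simp only [← sum_div]
  congr 1
  have h3 : ∀ Φ : V → ZMod 2, ∑ χ : ZMod 2, ∑ u : U → ZMod 2, ∑ w : ZMod 2, prob5 ε (Option V)
        (ext (M u) (cl e tw Φ) (Φ + (e • μ + χ • st)) w) (extv μ e) (extv st 0) (extv tw 0) =
      ∑ u : U → ZMod 2, ∑ χ : ZMod 2, ∑ w : ZMod 2, prob5 ε (Option V)
        (ext (M u) (cl e tw Φ) (Φ + (e • μ + χ • st)) w) (extv μ e) (extv st 0) (extv tw 0) :=
    fun Φ => sum_comm
  rw [sum_congr rfl fun Φ _ => h3 Φ, sum_comm]

theorem avg_mul {U V U' V' : Type} [Fintype U] [DecidableEq U] [Fintype V] [DecidableEq V]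
    [Fintype U'] [DecidableEq U'] [Fintype V'] [DecidableEq V'] (E0 : Option U ≃ U')
    (E : Option V ≃ V') (ε : List (ZMod 2)) (e : ZMod 2)
    (M : (U → ZMod 2) → Matrix V V (ZMod 2)) (M' : (U' → ZMod 2) → Matrix V' V' (ZMod 2))
    (μ st tw Φ : V → ZMod 2) (χ : ZMod 2) (μ' st' tw' : V' → ZMod 2)
    (hM : ∀ u, (M' u).submatrix E E = ext (M (fun a => u (E0 (some a)))) (cl e tw Φ)
      (Φ + (e • μ + χ • st)) (u (E0 none)))
    (hμ : μ' ∘ E = extv μ e) (hst : st' ∘ E = extv st 0) (htw : tw' ∘ E = extv tw 0) :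
    avg (fun u : U' → ZMod 2 => prob5 ε V' (M' u) μ' st' tw') = HH ε e M μ st tw Φ χ := by
  unfold HH avg
  have h1 : ∀ u : U' → ZMod 2, prob5 ε V' (M' u) μ' st' tw' =
      (fun (v : U → ZMod 2) (w : ZMod 2) => prob5 ε (Option V)
        (ext (M v) (cl e tw Φ) (Φ + (e • μ + χ • st)) w) (extv μ e) (extv st 0) (extv tw 0))
        (fun a => u (E0 (some a))) (u (E0 none)) := by
    intro u
    rw [← prob5_equiv ε _ _ E, hM, hμ, hst, htw]
  have h2 : Fintype.card U' = Fintype.card U + 1 := by
    rw [← Fintype.card_congr E0, Fintype.card_option]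
  have h6 := sum_newE E0 (fun (v : U → ZMod 2) (w : ZMod 2) => prob5 ε (Option V)
        (ext (M v) (cl e tw Φ) (Φ + (e • μ + χ • st)) w) (extv μ e) (extv st 0) (extv tw 0))
  rw [sum_congr rfl fun u _ => h1 u, h2, h6, pow_succ, ← sum_div]
  field_simp

/-! ### The matrix -/

/-- case III: `θ = 0`; case II: `κ = 0`, `θ = 1` -/
def rowg (κ θ : ZMod 2) (n : ℕ) (q : PF n) : ZMod 2 :=
  (1 + θ) * (bit 2 q + κ * mu n q) + θ * mu n q

def AAg (κ θ : ZMod 2) (n : ℕ) : Matrix (Option (PF n)) (Option (PF n)) (ZMod 2) :=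
  ext (AA n) (fun q => bit 2 q) (rowg κ θ n) 0

theorem ext_diag {V : Type} [DecidableEq V] (M : Matrix V V (ZMod 2)) (φ ψ : V → ZMod 2)
    (u : Option V → ZMod 2) : ext M φ ψ 0 + Matrix.diagonal u =
      ext (M + Matrix.diagonal fun a => u (some a)) φ ψ (u none) := by
  ext a b
  match a, b with
  | none, none =>
    rw [Matrix.add_apply, Matrix.diagonal_apply_eq]
    exact zero_add _
  | none, some b =>
    rw [Matrix.add_apply, Matrix.diagonal_apply_ne _ (by simp), add_zero]
    rfl
  | some a, none =>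
    rw [Matrix.add_apply, Matrix.diagonal_apply_ne _ (by simp), add_zero]
    rfl
  | some a, some b =>
    show M a b + Matrix.diagonal u (some a) (some b) =
      M a b + Matrix.diagonal (fun a => u (some a)) a b
    by_cases h : a = b
    · subst h
      rw [Matrix.diagonal_apply_eq, Matrix.diagonal_apply_eq]
    · rw [Matrix.diagonal_apply_ne _ h, Matrix.diagonal_apply_ne _ (by simpa using h)]

section new

variable {n p : ℕ} (hn : n ≠ 0) (hp : p.Prime) (hpn : ¬ p ∣ n)

theorem matg_ext (hodd : Odd n) (hp2 : p ≠ 2) (κ θ : ZMod 2) (u : Option (PF (n * p)) → ZMod 2) :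
    (AAg κ θ (n * p) + Matrix.diagonal u).submatrix (up (H224.eqv hn hp hpn))
      (up (H224.eqv hn hp hpn)) =
      ext (AAg κ θ n + Matrix.diagonal (fun a => u (up (H224.eqv hn hp hpn) (some a))))
        (extv (sym n p) ((1 + θ) * (bit 2 p + κ * eps p) + θ * eps p))
        (extv (sym n p + eps p • mu n) (bit 2 p)) (u (up (H224.eqv hn hp hpn) none)) := by
  unfold AAg
  rw [ext_diag, ext_diag, up_mat _ (mat_ext hodd hn hp hp2 hpn _)]
  rfl

theorem mug_ext (κ : ZMod 2) : extv (mu (n * p)) κ ∘ up (H224.eqv hn hp hpn) =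
    extv (extv (mu n) κ) (eps p) := up_vec _ (mu_ext hn hp hpn) κ

theorem zero_ext {A B : Type} (E : Option A ≃ B) : (0 : B → ZMod 2) ∘ E = extv 0 0 := by
  rw [extv_zero]
  rfl

theorem twg_ext (θ : ZMod 2) : (extv 0 θ : Option (PF (n * p)) → ZMod 2) ∘
    up (H224.eqv hn hp hpn) = extv (extv 0 θ) 0 := up_vec _ (zero_ext _) θ

end new

theorem cl_ext (n : ℕ) (κ θ : ZMod 2) (φ : Pat n) (e b : ZMod 2) :
    cl e (extv 0 θ) (extv φ (b + κ * e)) =
      extv φ ((1 + θ) * (b + κ * e) + θ * e) := by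
  funext a
  match a with
  | some q =>
    show (if (0 : ZMod 2) = 1 then e else φ q) = φ q
    rw [if_neg zero_ne_one]
  | none =>
    show (if θ = 1 then e else b + κ * e) = (1 + θ) * (b + κ * e) + θ * e
    generalize b + κ * e = x
    revert θ e x
    decide

theorem row_ext (n : ℕ) (κ : ZMod 2) (φ : Pat n) (e b : ZMod 2) :
    extv φ (b + κ * e) + e • extv (mu n) κ = extv (φ + e • mu n) b := by
  funext a
  match a with
  | some q => rfl
  | none =>
    show b + κ * e + e * κ = b
    rw [mul_comm e κ, add_assoc, CharTwo.add_self_eq_zero, add_zero]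

end Vale.Agent.P017.R4.H224
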