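import Vale.Agent.P017.R4.H224.Gen

/-!
# P017, modules D3 and D2: dictionary for the even discriminants (3 not inert, 5 not split)
-/

open Finset

namespace Vale.Agent.P017.R4.H224

open Vale.Agent.P017.R3
open Vale.Agent.P017.R3.H224
open Vale.Agent.P017.R2.H985 (bit PF Pat sym Mat cork)
open Vale.Agent.P017.R3.H285 (L15 res split RR split_fst split_snd mem_L15 card_L15 sum_res ok3 ok5
  free_mul)

noncomputable def FFg (κ θ : ZMod 2) (ε : List (ZMod 2)) (n : ℕ) : ℝ :=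
  avg (fun u : Option (PF n) → ZMod 2 => prob5 ε (Option (PF n)) (AAg κ θ n + Matrix.diagonal u)
    (extv (mu n) κ) 0 (extv 0 θ))

/-! ### Patterns -/

open Classical in
theorem sum_okg {n : ℕ} (hn : n ≠ 0) (tg : ℕ → ZMod 2) (F : Pat n → ℝ) :
    ∑ φ : Pat (L15 n), (if (∀ q : PF (L15 n), ¬ (q : ℕ) ∣ n → φ q = tg (q : ℕ))
      then F (res hn φ) else 0) = ∑ w : Pat n, F w := by
  rw [← Equiv.sum_comp (split hn).symm, Fintype.sum_prod_type]
  refine sum_congr rfl fun w _ => ?_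
  have h1 : ∀ v : RR n → ZMod 2, res hn ((split hn).symm (w, v)) = w := by
    intro v
    rw [← split_fst, Equiv.apply_symm_apply]
  have h2 : ∀ v : RR n → ZMod 2, (∀ q : PF (L15 n), ¬ (q : ℕ) ∣ n →
      (split hn).symm (w, v) q = tg (q : ℕ)) ↔ v = fun r => tg ((r.1 : ℕ)) := by
    intro v
    have h3 : ∀ r : RR n, (split hn).symm (w, v) r.1 = v r := by
      intro r
      have := split_snd hn ((split hn).symm (w, v)) r
      rw [Equiv.apply_symm_apply] at this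
      exact this.symm
    constructor
    · intro h
      funext r
      rw [← h3 r]
      exact h r.1 r.2
    · intro h q hq
      rw [h3 ⟨q, hq⟩, h]
  simp only [h1, h2]
  rw [sum_ite_eq' univ]
  simp

/-- the local conditions are conditions on the symbols -/
theorem okc_iffg {a n p : ℕ} (ha : a = 1 ∨ a = 2) (hn : n ≠ 0) (hp : p.Prime) (h5 : 5 < p) :
    OKc (a * (n * p)) ↔ ∀ q : PF (L15 n), ¬ (q : ℕ) ∣ n →
      sym (L15 n) p q = 1 + bit ((a * n : ℕ) : ℤ) (q : ℕ) := by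
  have h3p : ¬ 3 ∣ p := fun h => by
    have := (Nat.prime_dvd_prime_iff_eq Nat.prime_three hp).1 h; omega
  have h5p : ¬ 5 ∣ p := fun h => by
    have := (Nat.prime_dvd_prime_iff_eq Nat.prime_five hp).1 h; omega
  have h3a : ∀ m : ℕ, 3 ∣ a * m ↔ 3 ∣ m := by
    intro m
    rcases ha with rfl | rfl <;> omega
  have h5a : ∀ m : ℕ, 5 ∣ a * m ↔ 5 ∣ m := by
    intro m
    rcases ha with rfl | rfl <;> omega
  rw [← mul_assoc]
  constructor
  · rintro ⟨c3, c5⟩ ⟨q, hq⟩ hqn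
    change bit (p : ℤ) q = 1 + bit ((a * n : ℕ) : ℤ) q
    rcases (mem_L15 hn).1 hq with h | h | h
    · exact absurd (Nat.dvd_of_mem_primeFactors h) hqn
    · subst h; exact (ok3 (fun h => hqn ((h3a n).1 h)) h3p).1 c3
    · subst h; exact (ok5 (fun h => hqn ((h5a n).1 h)) h5p).1 c5
  · intro h
    constructor
    · by_cases hd : 3 ∣ n
      · exact Or.inl (((h3a n).2 hd).mul_right p)
      · exact (ok3 (fun h => hd ((h3a n).1 h)) h3p).2
          (h ⟨3, (mem_L15 hn).2 (Or.inr (Or.inl rfl))⟩ hd)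
    · by_cases hd : 5 ∣ n
      · exact Or.inl (((h5a n).2 hd).mul_right p)
      · exact (ok5 (fun h => hd ((h5a n).1 h)) h5p).2
          (h ⟨5, (mem_L15 hn).2 (Or.inr (Or.inr rfl))⟩ hd)

/-- sum over the pairs (pattern, symbol of 2) -/
theorem sum_bij (n : ℕ) (o : PF n → ZMod 2) (s : ZMod 2) (F : (Option (PF n) → ZMod 2) → ℝ) :
    ∑ w : Pat n, ∑ ρ : ZMod 2, F (extv (w + o) (ρ + s)) = ∑ u : Option (PF n) → ZMod 2, F u := by
  have h1 := sum_option (V := PF n) (fun v ρ => F (extv v ρ))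
  have h4 : ∀ u' : Option (PF n) → ZMod 2, extv (fun q => u' (some q)) (u' none) = u' := by
    intro u'
    funext a
    cases a <;> rfl
  simp only [h4] at h1
  rw [h1]
  refine Fintype.sum_equiv (Equiv.addRight o) _ _ fun w => ?_
  exact Fintype.sum_equiv (Equiv.addRight s) _ _ fun ρ => rfl

theorem sum_bij' (n : ℕ) (κe : ZMod 2) (F : (Option (PF n) → ZMod 2) → ℝ) :
    ∑ w : Pat n, ∑ ρ : ZMod 2, F (extv w (ρ + κe)) = ∑ u : Option (PF n) → ZMod 2, F u := by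
  have h := sum_bij n 0 κe F
  simpa using h

/-! ### The systems -/

theorem FFg_mem (κ θ : ZMod 2) (ε : List (ZMod 2)) (n : ℕ) : 0 ≤ FFg κ θ ε n ∧ FFg κ θ ε n ≤ 1 :=
  avg_mem fun _ => prob5_mem _ _ _ _ _ _

/-- the step function -/
noncomputable def Gg (κ θ : ZMod 2) (ε : List (ZMod 2)) (e n : ℕ) (φ : Pat n) (b : ZMod 2) : ℝ :=
  HH ε (eps e) (fun u : Option (PF n) → ZMod 2 => AAg κ θ n + Matrix.diagonal u)
    (extv (mu n) κ) 0 (extv 0 θ) (extv φ (b + κ * eps e)) 0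

theorem Gg_mul {n p : ℕ} (hodd : Odd n) (hn : n ≠ 0) (hp : p.Prime) (hp2 : p ≠ 2)
    (hpn : ¬ p ∣ n) (κ θ : ZMod 2) (ε : List (ZMod 2)) {e : ℕ} (he : eps p = eps e) :
    FFg κ θ ε (n * p) = Gg κ θ ε e n (sym n p) (bit 2 p) := by
  unfold Gg FFg
  refine avg_mul (up (R3.H224.eqv hn hp hpn)) (up (R3.H224.eqv hn hp hpn)) ε (eps e) _ _ _ _ _ _ 0 _ _ _
    ?_ ?_ ?_ ?_
  · intro u
    rw [matg_ext hn hp hpn hodd hp2, he]
    have h1 : extv (sym n p) (bit 2 p + κ * eps e) + (eps e • extv (mu n) κ +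
        (0 : ZMod 2) • (0 : Option (PF n) → ZMod 2)) = extv (sym n p + eps e • mu n) (bit 2 p) := by
      rw [smul_zero, add_zero, row_ext]
    rw [h1, cl_ext]
  · rw [mug_ext, he]
  · exact zero_ext _
  · exact twg_ext hn hp hpn θ

theorem Gg_sum (κ θ : ZMod 2) (ε : List (ZMod 2)) (e n : ℕ) :
    ∑ φ : Pat n, ∑ b : ZMod 2, Gg κ θ ε e n φ b =
      2 ^ (n.primeFactors.card + 1) * FFg κ θ (eps e :: ε) n := by
  unfold Gg FFg
  rw [sum_bij' n (κ * eps e) (fun Φ => HH ε (eps e)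
    (fun u : Option (PF n) → ZMod 2 => AAg κ θ n + Matrix.diagonal u)
    (extv (mu n) κ) 0 (extv 0 θ) Φ 0)]
  have h1 := HH_sum ε (eps e) (fun u : Option (PF n) → ZMod 2 => AAg κ θ n + Matrix.diagonal u)
    (extv (mu n) κ) 0 (extv 0 θ)
  have h2 : ∀ (Φ : Option (PF n) → ZMod 2) (χ : ZMod 2), HH ε (eps e)
    (fun u : Option (PF n) → ZMod 2 => AAg κ θ n + Matrix.diagonal u)
    (extv (mu n) κ) 0 (extv 0 θ) Φ χ = HH ε (eps e)
    (fun u : Option (PF n) → ZMod 2 => AAg κ θ n + Matrix.diagonal u)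
    (extv (mu n) κ) 0 (extv 0 θ) Φ 0 := by
    intro Φ χ
    unfold HH
    simp only [smul_zero]
  have h3 : ∑ Φ : Option (PF n) → ZMod 2, ∑ χ : ZMod 2, HH ε (eps e)
    (fun u : Option (PF n) → ZMod 2 => AAg κ θ n + Matrix.diagonal u)
    (extv (mu n) κ) 0 (extv 0 θ) Φ χ = 2 * ∑ Φ : Option (PF n) → ZMod 2, HH ε (eps e)
    (fun u : Option (PF n) → ZMod 2 => AAg κ θ n + Matrix.diagonal u)
    (extv (mu n) κ) 0 (extv 0 θ) Φ 0 := by
    rw [mul_sum]
    refine sum_congr rfl fun Φ _ => ?_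
    rw [sum_congr rfl fun χ _ => h2 Φ χ, sum_const2]
  rw [h3, Fintype.card_option, card_PF, pow_succ _ (_ + 1)] at h1
  linarith

theorem sum_base (κ θ : ZMod 2) (n : ℕ) (o : PF n → ZMod 2) (s : ZMod 2) :
    ∑ w : Pat n, ∑ ρ : ZMod 2,
      (if ck (AAg κ θ n + Matrix.diagonal (extv (w + o) (ρ + s))) = 0 then (1 : ℝ) else 0) =
      2 ^ (n.primeFactors.card + 1) * FFg κ θ [] n := by
  rw [sum_bij n o s (fun u => if ck (AAg κ θ n + Matrix.diagonal u) = 0 then (1 : ℝ) else 0)]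
  unfold FFg avg
  rw [Fintype.card_option, card_PF]
  simp only [prob5]
  field_simp

theorem card_pair {n : ℕ} (hn : n ≠ 0) : (2 * Fintype.card (Pat (L15 n)) / 2 ^ free n : ℝ) =
    2 ^ (n.primeFactors.card + 1) := by
  rw [card_L15 hn]
  have h7 : (0 : ℝ) < 2 ^ free n := by positivity
  field_simp
  ring

open Classical in
theorem card_okg {n : ℕ} (hn : n ≠ 0) (tg : ℕ → ZMod 2) (P : Pat n → ZMod 2 → Prop) :
    ((univ.filter (fun x : Pat (L15 n) × ZMod 2 =>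
      (∀ q : PF (L15 n), ¬ (q : ℕ) ∣ n → x.1 q = tg (q : ℕ)) ∧ P (res hn x.1) x.2)).card : ℝ) =
      ∑ w : Pat n, ∑ ρ : ZMod 2, if P w ρ then (1 : ℝ) else 0 := by
  rw [← sum_okg hn tg (fun w => ∑ ρ : ZMod 2, if P w ρ then (1 : ℝ) else 0), card_filter,
    Nat.cast_sum, Fintype.sum_prod_type]
  refine sum_congr rfl fun φ _ => ?_
  split_ifs with h
  · refine sum_congr rfl fun ρ _ => ?_
    by_cases h' : P (res hn φ) ρ
    · rw [if_pos ⟨h, h'⟩, if_pos h', Nat.cast_one]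
    · rw [if_neg fun h'' => h' h''.2, if_neg h', Nat.cast_zero]
  · refine sum_eq_zero fun ρ _ => ?_
    rw [if_neg fun h' => h h'.1, Nat.cast_zero]

open Classical in
theorem card_okg' {n : ℕ} (hn : n ≠ 0) (tg : ℕ → ZMod 2) :
    ((univ.filter (fun x : Pat (L15 n) × ZMod 2 =>
      ∀ q : PF (L15 n), ¬ (q : ℕ) ∣ n → x.1 q = tg (q : ℕ))).card : ℝ) =
      2 ^ (n.primeFactors.card + 1) := by
  have h := card_okg hn tg (fun _ _ => True)
  simp only [and_true, if_true] at h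
  rw [h, sum_const2, sum_const, card_univ, Fintype.card_fun, ZMod.card, Fintype.card_coe,
    nsmul_eq_mul, pow_succ, mul_one]
  push_cast
  rfl

theorem hyp8_g (κ θ : ZMod 2) (a : ℕ) (ha : a = 1 ∨ a = 2) (OK Rd : ℕ → Prop)
    (hOK : ∀ m, OK m ↔ OKc (a * m)) (o' : (n : ℕ) → PF n → ZMod 2)
    (hRd : ∀ n, Squarefree n → Odd n → ∀ p, p.Prime → p ≠ 2 → ¬ p ∣ n →
      ck (AAg κ θ n + Matrix.diagonal (extv (sym n p + o' n) (bit 2 p + ∑ q : PF n, bit 2 q))) = 0 →
      Rd (n * p)) :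
    Hyp8 ⟨OK, Rd, FFg κ θ, free⟩ := by
  classical
  refine ⟨FFg_mem κ θ, fun n p hp h5 => free_mul hp h5, ?_, ?_⟩
  · intro n hn ho ε e he
    refine ⟨fun φ ρ => Gg κ θ ε e n (res hn.ne_zero φ) ρ, fun φ ρ => HH_nonneg _ _ _ _ _ _ _ _,
      fun p hp hp5 hpn hpe => ?_, ?_⟩
    · refine Gg_mul ho hn.ne_zero hp (by omega) hpn κ θ ε ?_
      unfold eps
      rcases he with rfl | rfl
      · rw [hpe]
      · rw [hpe]
    · have h1 := sum_res hn.ne_zero (fun φ => ∑ ρ : ZMod 2, Gg κ θ ε e n φ ρ)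
      show ∑ φ : Pat (L15 n), ∑ ρ : ZMod 2, Gg κ θ ε e n (res hn.ne_zero φ) ρ =
        2 * (Fintype.card (Pat (L15 n)) : ℝ) * FFg κ θ (eps e :: ε) n
      rw [h1, Gg_sum, card_L15 hn.ne_zero]
      ring
  · intro n hn ho e he
    have hn0 := hn.ne_zero
    refine ⟨univ.filter (fun x : Pat (L15 n) × ZMod 2 =>
        (∀ q : PF (L15 n), ¬ (q : ℕ) ∣ n → x.1 q = 1 + bit ((a * n : ℕ) : ℤ) (q : ℕ)) ∧
          ck (AAg κ θ n + Matrix.diagonal (extv (res hn0 x.1 + o' n)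
            (x.2 + ∑ q : PF n, bit 2 q))) = 0),
      univ.filter (fun x : Pat (L15 n) × ZMod 2 =>
        ∀ q : PF (L15 n), ¬ (q : ℕ) ∣ n → x.1 q = 1 + bit ((a * n : ℕ) : ℤ) (q : ℕ)), ?_, ?_, ?_, ?_⟩
    · intro p hp h5 hpn hpe hA
      rw [mem_filter] at hA
      exact ⟨(hOK _).2 ((okc_iffg ha hn0 hp h5).2 hA.2.1), hRd n hn ho p hp (by omega) hpn hA.2.2⟩
    · intro p hp h5 hpn hpe hok
      rw [mem_filter]
      exact ⟨mem_univ _, (okc_iffg ha hn0 hp h5).1 ((hOK _).1 hok)⟩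
    · have h1 := card_okg hn0 (fun q => 1 + bit ((a * n : ℕ) : ℤ) q) (fun w ρ =>
        ck (AAg κ θ n + Matrix.diagonal (extv (w + o' n) (ρ + ∑ q : PF n, bit 2 q))) = 0)
      have h2 := h1.trans (by convert sum_base κ θ n (o' n) (∑ q : PF n, bit 2 q))
      show FFg κ θ [] n * (2 * (Fintype.card (Pat (L15 n)) : ℝ) / 2 ^ free n) ≤ _
      rw [card_pair hn0, mul_comm]
      refine le_of_eq ?_
      convert h2.symm
    · rw [card_okg' hn0 (fun q => 1 + bit ((a * n : ℕ) : ℤ) q)]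
      show _ ≤ (2 * (Fintype.card (Pat (L15 n)) : ℝ) / 2 ^ free n)
      rw [card_pair hn0]

/-! ### Case III -/

theorem AAg_zero (κ : ZMod 2) (n : ℕ) : AAg κ 0 n = AA3 κ n := by
  unfold AAg AA3
  congr 1
  funext q
  unfold rowg
  rw [add_zero, one_mul, zero_mul, add_zero]

theorem FF3_eq (κ : ZMod 2) : FF3 κ = FFg κ 0 := by
  funext ε n
  unfold FF3 FFg
  simp only [prob_eq5, AAg_zero, extv_zero]

theorem MM3_eq (κ : ZMod 2) (n : ℕ) (w : Pat n) (ρ : ZMod 2) : MM3 κ n w ρ =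
    AAg κ 0 n + Matrix.diagonal (extv (w + fun q : PF n => bit 2 q +
      ∑ r ∈ univ.erase q, bit ((r : ℕ) : ℤ) (q : ℕ)) (ρ + ∑ q : PF n, bit 2 q)) := by
  rw [AAg_zero]
  unfold MM3 AA3
  rw [ext_diag, Mat_eq]
  congr 2
  congr 1
  funext q
  show w q + bit 2 q + _ = w q + (bit 2 q + _)
  rw [add_assoc]

theorem rec_ext {V : Type} [DecidableEq V] {M : Matrix V V (ZMod 2)} {μ : V → ZMod 2}
    (h : Rec M μ) (φ : V → ZMod 2) (κ w : ZMod 2) :
    Rec (ext M φ (fun q => φ q + κ * μ q) w) (extv μ κ) := by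
  intro a b hab
  match a, b with
  | none, none => exact absurd rfl hab
  | none, some b =>
    show φ b + κ * μ b + φ b = κ * μ b
    rw [add_right_comm, CharTwo.add_self_eq_zero, zero_add]
  | some a, none =>
    show φ a + (φ a + κ * μ a) = μ a * κ
    rw [← add_assoc, CharTwo.add_self_eq_zero, zero_add, mul_comm]
  | some a, some b => exact h a b fun h' => hab (by rw [h'])

theorem avg_le (κ θ : ZMod 2) (n : ℕ) (B : ℝ)
    (hB : avg (fun u : PF n → ZMod 2 => (2 : ℝ) ^ ck (AA n + Matrix.diagonal u)) ≤ B) :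
    avg (fun u : Option (PF n) → ZMod 2 => (2 : ℝ) ^ ck (AAg κ θ n + Matrix.diagonal u)) ≤
      2 * B := by
  unfold avg at hB ⊢
  have h1 : ∀ u : Option (PF n) → ZMod 2, (2 : ℝ) ^ ck (AAg κ θ n + Matrix.diagonal u) ≤
      (fun (v : PF n → ZMod 2) (_ : ZMod 2) => 2 * (2 : ℝ) ^ ck (AA n + Matrix.diagonal v))
        (fun q => u (some q)) (u none) := by
    intro u
    unfold AAg
    rw [ext_diag]
    calc (2 : ℝ) ^ ck (ext (AA n + Matrix.diagonal fun a => u (some a)) (fun q => bit 2 q)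
          (rowg κ θ n) (u none))
        ≤ 2 ^ (ck (AA n + Matrix.diagonal fun a => u (some a)) + 1) :=
          pow_le_pow_right₀ (by norm_num) (ck_ext_le _ _ _ _)
      _ = _ := by
          show _ = 2 * (2 : ℝ) ^ ck (AA n + Matrix.diagonal fun q => u (some q))
          rw [pow_succ, mul_comm]
  rw [Fintype.card_option]
  rw [div_le_iff₀ (by positivity)] at hB ⊢
  calc ∑ u : Option (PF n) → ZMod 2, (2 : ℝ) ^ ck (AAg κ θ n + Matrix.diagonal u)
      ≤ ∑ u : Option (PF n) → ZMod 2,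
        (fun (v : PF n → ZMod 2) (_ : ZMod 2) => 2 * (2 : ℝ) ^ ck (AA n + Matrix.diagonal v))
        (fun q => u (some q)) (u none) := sum_le_sum fun u _ => h1 u
    _ = ∑ v : PF n → ZMod 2, ∑ _w : ZMod 2, 2 * (2 : ℝ) ^ ck (AA n + Matrix.diagonal v) :=
        sum_option (V := PF n) (fun (v : PF n → ZMod 2) (_ : ZMod 2) =>
          2 * (2 : ℝ) ^ ck (AA n + Matrix.diagonal v))
    _ = 4 * ∑ v : PF n → ZMod 2, (2 : ℝ) ^ ck (AA n + Matrix.diagonal v) := by
        simp only [sum_const2, ← mul_sum]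
        ring
    _ ≤ _ := by
        rw [pow_succ]
        linarith

theorem stmtS3 : StmtS3 := by
  intro hR hRM κ
  refine ⟨?_, fun η B hη => ?_⟩
  · have h := hyp8_g κ 0 2 (Or.inr rfl) (fun m => OKc (2 * m))
      (fun m => (m % 4 = 1 ↔ κ = 1) → Vale.Agent.P017.H185.Redei (2 * m)) (fun m => Iff.rfl)
      (fun n q => bit 2 q + ∑ r ∈ univ.erase q, bit ((r : ℕ) : ℤ) (q : ℕ))
      (fun n hn ho p hp hp2 hpn hck hκ => hR κ n hn ho p hp hp2 hpn hκ (by rw [MM3_eq]; exact hck))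
    unfold S3
    rw [FF3_eq]
    exact h
  · obtain ⟨h, k, hk⟩ := hRM η (2 * B) hη
    refine ⟨h, k, fun ε m d hm ho _ _ hc hB => ?_⟩
    have h1 := avg_le κ 0 m B hB
    rw [AAg_zero] at h1
    exact hk ε (Option (PF m)) (AA3 κ m) (extv (mu m) κ)
      (rec_ext (rec_AA m ho) _ _ _) hc h1

/-! ### Case II -/

theorem AAg_one (n : ℕ) : AAg 0 1 n = AA2 n := by
  unfold AAg AA2
  congr 1
  funext q
  unfold rowg
  rw [CharTwo.add_self_eq_zero, zero_mul, one_mul, zero_add]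

theorem FF2_eq : FF2' = FFg 0 1 := by
  funext ε n
  unfold FF2' FFg
  simp only [prob3_eq5, AAg_one]

theorem MM2_eq (n : ℕ) (w : Pat n) (ρ : ZMod 2) : MM2' n w ρ =
    AAg 0 1 n + Matrix.diagonal (extv (w + fun q : PF n =>
      ∑ r ∈ univ.erase q, bit ((r : ℕ) : ℤ) (q : ℕ)) (ρ + ∑ q : PF n, bit 2 q)) := by
  rw [AAg_one]
  unfold MM2' AA2
  rw [ext_diag, Mat_eq]
  rfl

theorem rec3_AA2 (n : ℕ) (hodd : Odd n) (u : Option (PF n) → ZMod 2) :
    Rec3 (AA2 n + Matrix.diagonal u) (extv (mu n) 0) (extv 0 1) := by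
  refine ⟨?_, ?_, ?_, ⟨none, rfl⟩, ?_⟩
  · intro a b hab ha hb
    match a, b with
    | none, _ => exact absurd ha one_ne_zero
    | some _, none => exact absurd hb one_ne_zero
    | some q, some q' =>
      have hne : q ≠ q' := fun h => hab (by rw [h])
      rw [Matrix.add_apply, Matrix.add_apply, Matrix.diagonal_apply_ne _ hab,
        Matrix.diagonal_apply_ne _ hab.symm, add_zero, add_zero]
      exact rec_AA n hodd q q' hne
  · intro a b ha hab
    match a, b with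
    | some _, _ => exact absurd ha zero_ne_one
    | none, none => exact absurd rfl hab
    | none, some q =>
      rw [Matrix.add_apply, Matrix.diagonal_apply_ne _ hab, add_zero]
      rfl
  · intro a b ha hb
    match a, b with
    | none, none => rfl
    | none, some _ => exact absurd hb zero_ne_one
    | some _, _ => exact absurd ha zero_ne_one
  · intro a ha
    match a with
    | none => rfl
    | some _ => exact absurd ha zero_ne_one

theorem stmtS2' : StmtS2' := by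
  intro hR hRM
  refine ⟨?_, fun η B hη => ?_⟩
  · have h := hyp8_g 0 1 1 (Or.inl rfl) OKc (fun m => m % 4 = 1 → Redei2 m)
      (fun m => by rw [one_mul])
      (fun n q => ∑ r ∈ univ.erase q, bit ((r : ℕ) : ℤ) (q : ℕ))
      (fun n hn ho p hp hp2 hpn hck hκ => hR n hn ho p hp hp2 hpn hκ (by rw [MM2_eq]; exact hck))
    unfold S2'
    rw [FF2_eq]
    exact h
  · obtain ⟨h, k, hk⟩ := hRM η (2 * B) hη
    refine ⟨h, k, fun ε m d hm ho _ _ hc hB => ?_⟩
    have h1 := avg_le 0 1 m B hB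
    rw [AAg_one] at h1
    have h2 := hk ε (Option (PF m)) (Option (PF m) → ZMod 2)
      (fun u => AA2 m + Matrix.diagonal u) (extv (mu m) 0) (extv 0 1)
      (fun u => rec3_AA2 m ho u) hc ?_
    · show η ≤ FF2' ε m
      unfold FF2' avg
      rw [Fintype.card_fun, ZMod.card] at h2
      push_cast at h2
      exact h2
    · rw [Fintype.card_fun, ZMod.card]
      push_cast
      exact h1

end Vale.Agent.P017.R4.H224
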