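import Vale.Agent.P017.R4.H224.St1

/-!
# P017, modules D5 and D6: dictionary for the even discriminants (3 inert, 5 split)
-/

open Finset

namespace Vale.Agent.P017.R4.H224

open Vale.Agent.P017.R3
open Vale.Agent.P017.R3.H224
open Vale.Agent.P017.R2.H985 (bit PF Pat sym Mat cork)
open Vale.Agent.P017.R3.H285 (L15 res split RR split_fst split_snd mem_L15 card_L15 sum_res ok3 ok5
  free_mul)

/-- bordered matrix -/
def AAgs (κ θ c : ZMod 2) (n : ℕ) (u : Option (PF n) → ZMod 2) :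
    Matrix (Option (Option (PF n))) (Option (Option (PF n))) (ZMod 2) :=
  ext (AAg κ θ n + Matrix.diagonal u) (extv (fun q : PF n => bit ((q : ℕ) : ℤ) 5) c)
    (extv (fun q : PF n => bit ((q : ℕ) : ℤ) 3) 1) 1

noncomputable def FFgs (κ θ c : ZMod 2) (ε : List (ZMod 2)) (n : ℕ) : ℝ :=
  if 3 ∣ n ∨ 5 ∣ n then 0 else
    avg (fun u : Option (PF n) → ZMod 2 =>
      prob5 ε (Option (Option (PF n))) (AAgs κ θ c n u) (extv (extv (mu n) κ) 0) (extv 0 1)
        (extv (extv 0 θ) 0))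

theorem FFgs_mem (κ θ c : ZMod 2) (ε : List (ZMod 2)) (n : ℕ) :
    0 ≤ FFgs κ θ c ε n ∧ FFgs κ θ c ε n ≤ 1 := by
  unfold FFgs
  split_ifs
  · norm_num
  · exact avg_mem fun _ => prob5_mem _ _ _ _ _ _

theorem FFgs_zero {n : ℕ} (h : 3 ∣ n ∨ 5 ∣ n) (κ θ c : ZMod 2) (ε : List (ZMod 2)) :
    FFgs κ θ c ε n = 0 := by
  unfold FFgs
  rw [if_pos h]

/-! ### The new prime -/

theorem cl_extv {V : Type} (e b : ZMod 2) (tw Φ : V → ZMod 2) :
    cl e (extv tw 0) (extv Φ b) = extv (cl e tw Φ) b := by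
  funext a
  match a with
  | some q => rfl
  | none =>
    show (if (0 : ZMod 2) = 1 then e else b) = b
    rw [if_neg zero_ne_one]

theorem row_extv {V : Type} (e b3 b5 : ZMod 2) (μ Φ : V → ZMod 2) :
    extv Φ b3 + (e • extv μ 0 + (b5 + b3) • extv 0 1) = extv (Φ + e • μ) b5 := by
  funext a
  match a with
  | some q =>
    show Φ q + (e * μ q + (b5 + b3) * 0) = Φ q + e * μ q
    rw [mul_zero, add_zero]
  | none =>
    show b3 + (e * 0 + (b5 + b3) * 1) = b5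
    rw [mul_zero, zero_add, mul_one, add_comm b5, ← add_assoc, CharTwo.add_self_eq_zero, zero_add]

/-- the step function -/
noncomputable def Ggs (κ θ c : ZMod 2) (ε : List (ZMod 2)) (e n : ℕ) (φ : Pat n)
    (b b3 b5 : ZMod 2) : ℝ :=
  HH ε (eps e) (AAgs κ θ c n) (extv (extv (mu n) κ) 0) (extv 0 1) (extv (extv 0 θ) 0)
    (extv (extv φ (b + κ * eps e)) b3) (b5 + b3)

theorem Ggs_mul {n p : ℕ} (hodd : Odd n) (hn : n ≠ 0) (hp : p.Prime) (hp5 : 5 < p)
    (hpn : ¬ p ∣ n) (h3 : ¬ 3 ∣ n) (h5 : ¬ 5 ∣ n) (κ θ c : ZMod 2) (ε : List (ZMod 2)) {e : ℕ}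
    (he : eps p = eps e) :
    FFgs κ θ c ε (n * p) =
      Ggs κ θ c ε e n (sym n p) (bit 2 p) (bit (p : ℤ) 3) (bit (p : ℤ) 5) := by
  have h3' : ¬ 3 ∣ n * p := not_dvd_mul Nat.prime_three h3 hp (by omega)
  have h5' : ¬ 5 ∣ n * p := not_dvd_mul Nat.prime_five h5 hp (by omega)
  unfold Ggs FFgs
  rw [if_neg (by tauto)]
  refine avg_mul (up (R3.H224.eqv hn hp hpn)) (up (up (R3.H224.eqv hn hp hpn))) ε (eps e) _ _ _ _ _
    _ _ _ _ _ ?_ ?_ ?_ ?_
  · intro u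
    have h := up_mat _ (matg_ext hn hp hpn hodd (by omega) κ θ u)
      (extv (fun q : PF (n * p) => bit ((q : ℕ) : ℤ) 5) c)
      (extv (fun q : PF (n * p) => bit ((q : ℕ) : ℤ) 3) 1) 1
    refine h.trans ?_
    rw [row_extv, row_ext, cl_extv, cl_ext, he]
    unfold AAgs
    congr 2
    · funext a
      cases a <;> rfl
    · funext a
      cases a <;> rfl
  · rw [up_vec _ (mug_ext hn hp hpn κ) 0, he]
  · exact up_vec _ (zero_ext _) 1
  · exact up_vec _ (twg_ext hn hp hpn θ) 0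

theorem sum_ext2 {V : Type} [Fintype V] [DecidableEq V] (F : (Option V → ZMod 2) → ℝ) :
    ∑ v : V → ZMod 2, ∑ b : ZMod 2, F (extv v b) = ∑ u : Option V → ZMod 2, F u := by
  have h1 := sum_option (V := V) (fun v ρ => F (extv v ρ))
  have h4 : ∀ u' : Option V → ZMod 2, extv (fun q => u' (some q)) (u' none) = u' := by
    intro u'
    funext a
    cases a <;> rfl
  simp only [h4] at h1
  exact h1.symm

theorem Ggs_sum (κ θ c : ZMod 2) {n : ℕ} (h3 : ¬ 3 ∣ n) (h5 : ¬ 5 ∣ n) (ε : List (ZMod 2))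
    (e : ℕ) : ∑ φ : Pat n, ∑ b3 : ZMod 2, ∑ b5 : ZMod 2, ∑ b : ZMod 2, Ggs κ θ c ε e n φ b b3 b5 =
      2 ^ (n.primeFactors.card + 3) * FFgs κ θ c (eps e :: ε) n := by
  have h1 : ∀ φ : Pat n, ∑ b3 : ZMod 2, ∑ b5 : ZMod 2, ∑ b : ZMod 2, Ggs κ θ c ε e n φ b b3 b5 =
      ∑ b : ZMod 2, ∑ b3 : ZMod 2, ∑ χ : ZMod 2, HH ε (eps e) (AAgs κ θ c n)
        (extv (extv (mu n) κ) 0) (extv 0 1) (extv (extv 0 θ) 0)
        (extv (extv φ (b + κ * eps e)) b3) χ := by
    intro φ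
    have h2 : ∀ b3 : ZMod 2, ∑ b5 : ZMod 2, ∑ b : ZMod 2, Ggs κ θ c ε e n φ b b3 b5 =
        ∑ b : ZMod 2, ∑ χ : ZMod 2, HH ε (eps e) (AAgs κ θ c n)
        (extv (extv (mu n) κ) 0) (extv 0 1) (extv (extv 0 θ) 0)
        (extv (extv φ (b + κ * eps e)) b3) χ := by
      intro b3
      rw [sum_comm]
      refine sum_congr rfl fun b _ => ?_
      exact Fintype.sum_equiv (Equiv.addRight b3) _ _ fun b5 => rfl
    rw [sum_congr rfl fun b3 _ => h2 b3, sum_comm]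
  rw [sum_congr rfl fun φ _ => h1 φ, sum_bij' n (κ * eps e) (fun Φ => ∑ b3 : ZMod 2,
    ∑ χ : ZMod 2, HH ε (eps e) (AAgs κ θ c n) (extv (extv (mu n) κ) 0) (extv 0 1)
      (extv (extv 0 θ) 0) (extv Φ b3) χ),
    sum_ext2 (fun Φ => ∑ χ : ZMod 2, HH ε (eps e) (AAgs κ θ c n) (extv (extv (mu n) κ) 0)
      (extv 0 1) (extv (extv 0 θ) 0) Φ χ), HH_sum, Fintype.card_option, Fintype.card_option,
    card_PF]
  unfold FFgs
  rw [if_neg (by tauto)]

/-! ### Final matrices -/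

theorem sum_base_s (κ θ c : ZMod 2) {n : ℕ} (h3 : ¬ 3 ∣ n) (h5 : ¬ 5 ∣ n) (o : PF n → ZMod 2)
    (s : ZMod 2) : ∑ w : Pat n, ∑ ρ : ZMod 2,
      (if ck (AAgs κ θ c n (extv (w + o) (ρ + s))) = 0 then (1 : ℝ) else 0) =
      2 ^ (n.primeFactors.card + 1) * FFgs κ θ c [] n := by
  rw [sum_bij n o s (fun u => if ck (AAgs κ θ c n u) = 0 then (1 : ℝ) else 0)]
  unfold FFgs avg
  rw [if_neg (by tauto), Fintype.card_option, card_PF]
  simp only [prob5]
  field_simp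

open Classical in
theorem card_ok2 {n : ℕ} (hn : n ≠ 0) (h3 : ¬ 3 ∣ n) (h5 : ¬ 5 ∣ n) (t3 t5 : ZMod 2)
    (P : Pat n → ZMod 2 → Prop) :
    ((univ.filter (fun x : Pat (L15 n) × ZMod 2 =>
      (x.1 (p3 hn) = t3 ∧ x.1 (p5 hn) = t5) ∧ P (res hn x.1) x.2)).card : ℝ) =
      ∑ w : Pat n, ∑ ρ : ZMod 2, if P w ρ then (1 : ℝ) else 0 := by
  rw [card_filter, Nat.cast_sum, Fintype.sum_prod_type]
  have h1 : ∀ φ : Pat (L15 n), ∑ ρ : ZMod 2,
      (((if (φ (p3 hn) = t3 ∧ φ (p5 hn) = t5) ∧ P (res hn φ) ρ then 1 else 0 : ℕ)) : ℝ) =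
      (fun (w : Pat n) (b3 b5 : ZMod 2) => if b3 = t3 ∧ b5 = t5 then
        ∑ ρ : ZMod 2, (if P w ρ then (1 : ℝ) else 0) else 0) (res hn φ) (φ (p3 hn))
        (φ (p5 hn)) := by
    intro φ
    show _ = if φ (p3 hn) = t3 ∧ φ (p5 hn) = t5 then
        ∑ ρ : ZMod 2, (if P (res hn φ) ρ then (1 : ℝ) else 0) else 0
    split_ifs with h
    · refine sum_congr rfl fun ρ _ => ?_
      by_cases h' : P (res hn φ) ρ
      · rw [if_pos ⟨h, h'⟩, if_pos h', Nat.cast_one]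
      · rw [if_neg fun h'' => h' h''.2, if_neg h', Nat.cast_zero]
    · refine sum_eq_zero fun ρ _ => ?_
      rw [if_neg fun h' => h h'.1, Nat.cast_zero]
  rw [sum_congr rfl fun φ _ => h1 φ, sum_split hn h3 h5
    (fun (w : Pat n) (b3 b5 : ZMod 2) => if b3 = t3 ∧ b5 = t5 then
        ∑ ρ : ZMod 2, (if P w ρ then (1 : ℝ) else 0) else 0)]
  refine sum_congr rfl fun w _ => ?_
  simp only [ite_and]
  rw [sum_eq_single t3]
  · simp only [if_true]
    rw [sum_ite_eq' univ, if_pos (mem_univ _)]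
  · intro b _ hb
    simp [hb]
  · intro h; exact absurd (mem_univ _) h

open Classical in
theorem card_ok2' {n : ℕ} (hn : n ≠ 0) (h3 : ¬ 3 ∣ n) (h5 : ¬ 5 ∣ n) (t3 t5 : ZMod 2) :
    ((univ.filter (fun x : Pat (L15 n) × ZMod 2 =>
      x.1 (p3 hn) = t3 ∧ x.1 (p5 hn) = t5)).card : ℝ) = 2 ^ (n.primeFactors.card + 1) := by
  have h := card_ok2 hn h3 h5 t3 t5 (fun _ _ => True)
  simp only [and_true, if_true] at h
  rw [h, sum_const2, sum_const, card_univ, Fintype.card_fun, ZMod.card, Fintype.card_coe,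
    nsmul_eq_mul, pow_succ, mul_one]
  push_cast
  rfl

theorem card_pair2 {n : ℕ} (hn : n ≠ 0) (h3 : ¬ 3 ∣ n) (h5 : ¬ 5 ∣ n) :
    (2 * Fintype.card (Pat (L15 n)) / 2 ^ 2 : ℝ) = 2 ^ (n.primeFactors.card + 1) := by
  rw [card_L15' hn h3 h5, pow_add, pow_succ]
  field_simp
  ring

theorem ok2_iffg {a n p : ℕ} (ha : a = 1 ∨ a = 2) (h3 : ¬ 3 ∣ n) (h5 : ¬ 5 ∣ n) (hp : p.Prime)
    (hp5 : 5 < p) : OK2 (a * (n * p)) ↔
      bit (p : ℤ) 3 = bit ((a * n : ℕ) : ℤ) 3 ∧ bit (p : ℤ) 5 = bit ((a * n : ℕ) : ℤ) 5 := by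
  have h3a : ¬ 3 ∣ a * n := by
    rcases ha with rfl | rfl <;> omega
  have h5a : ¬ 5 ∣ a * n := by
    rcases ha with rfl | rfl <;> omega
  rw [← mul_assoc]
  exact ok2_iff h3a h5a hp hp5

theorem hyp8_gs (κ θ c : ZMod 2) (a : ℕ) (ha : a = 1 ∨ a = 2) (OK Rd : ℕ → Prop)
    (hOK : ∀ m, OK m ↔ OK2 (a * m)) (o' : (n : ℕ) → PF n → ZMod 2)
    (hRd : ∀ n, Squarefree n → Odd n → ¬ 3 ∣ n → ¬ 5 ∣ n → ∀ p, p.Prime → 5 < p → ¬ p ∣ n →
      OK2 (a * (n * p)) →
      ck (AAgs κ θ c n (extv (sym n p + o' n) (bit 2 p + ∑ q : PF n, bit 2 q))) = 0 →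
      Rd (n * p)) :
    Hyp8 ⟨OK, Rd, FFgs κ θ c, fun _ => 2⟩ := by
  classical
  refine ⟨FFgs_mem κ θ c, fun n p hp h5 => rfl, ?_, ?_⟩
  · intro n hn ho ε e he
    by_cases h35 : 3 ∣ n ∨ 5 ∣ n
    · refine ⟨fun _ _ => 0, fun _ _ => le_rfl, fun p hp _ hpn hpe => ?_, ?_⟩
      · exact FFgs_zero (h35.imp (fun h => h.mul_right p) (fun h => h.mul_right p)) κ θ c ε
      · show ∑ φ : Pat (L15 n), ∑ ρ : ZMod 2, (0 : ℝ) =
          2 * Fintype.card (Pat (L15 n)) * FFgs κ θ c (eps e :: ε) n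
        rw [FFgs_zero h35, mul_zero]
        simp
    · push Not at h35
      obtain ⟨h3, h5⟩ := h35
      refine ⟨fun φ ρ => Ggs κ θ c ε e n (res hn.ne_zero φ) ρ (φ (p3 hn.ne_zero))
        (φ (p5 hn.ne_zero)), fun φ ρ => HH_nonneg _ _ _ _ _ _ _ _,
        fun p hp hp5 hpn hpe => ?_, ?_⟩
      · refine Ggs_mul ho hn.ne_zero hp hp5 hpn h3 h5 κ θ c ε ?_
        unfold eps
        rcases he with rfl | rfl
        · rw [hpe]
        · rw [hpe]
      · show ∑ φ : Pat (L15 n), ∑ ρ : ZMod 2, Ggs κ θ c ε e n (res hn.ne_zero φ) ρ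
            (φ (p3 hn.ne_zero)) (φ (p5 hn.ne_zero)) =
          2 * (Fintype.card (Pat (L15 n)) : ℝ) * FFgs κ θ c (eps e :: ε) n
        rw [sum_split hn.ne_zero h3 h5 (fun w b3 b5 => ∑ ρ : ZMod 2,
          Ggs κ θ c ε e n w ρ b3 b5), Ggs_sum κ θ c h3 h5, card_L15' hn.ne_zero h3 h5]
        ring
  · intro n hn ho e he
    have hn0 := hn.ne_zero
    by_cases h35 : 3 ∣ n ∨ 5 ∣ n
    · refine ⟨∅, ∅, fun p _ _ _ _ h => absurd h (notMem_empty _), fun p _ _ _ _ h => ?_, ?_, ?_⟩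
      · exfalso
        obtain ⟨h1, h2⟩ := (hOK _).1 h
        rcases h35 with h | h
        · have h4 := (h.mul_right p).mul_left a
          omega
        · have h4 := (h.mul_right p).mul_left a
          omega
      · show FFgs κ θ c [] n * _ ≤ _
        rw [FFgs_zero h35, zero_mul, card_empty, Nat.cast_zero]
      · rw [card_empty, Nat.cast_zero]
        positivity
    · push Not at h35
      obtain ⟨h3, h5⟩ := h35
      refine ⟨univ.filter (fun x : Pat (L15 n) × ZMod 2 =>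
          (x.1 (p3 hn0) = bit ((a * n : ℕ) : ℤ) 3 ∧ x.1 (p5 hn0) = bit ((a * n : ℕ) : ℤ) 5) ∧
            ck (AAgs κ θ c n (extv (res hn0 x.1 + o' n) (x.2 + ∑ q : PF n, bit 2 q))) = 0),
        univ.filter (fun x : Pat (L15 n) × ZMod 2 =>
          x.1 (p3 hn0) = bit ((a * n : ℕ) : ℤ) 3 ∧ x.1 (p5 hn0) = bit ((a * n : ℕ) : ℤ) 5),
        ?_, ?_, ?_, ?_⟩
      · intro p hp hp5 hpn hpe hA
        rw [mem_filter] at hA
        have h1 : OK2 (a * (n * p)) := (ok2_iffg ha h3 h5 hp hp5).2 hA.2.1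
        exact ⟨(hOK _).2 h1, hRd n hn ho h3 h5 p hp hp5 hpn h1 hA.2.2⟩
      · intro p hp hp5 hpn hpe hok
        rw [mem_filter]
        exact ⟨mem_univ _, (ok2_iffg ha h3 h5 hp hp5).1 ((hOK _).1 hok)⟩
      · have h1 := card_ok2 hn0 h3 h5 (bit ((a * n : ℕ) : ℤ) 3) (bit ((a * n : ℕ) : ℤ) 5)
          (fun w ρ => ck (AAgs κ θ c n (extv (w + o' n) (ρ + ∑ q : PF n, bit 2 q))) = 0)
        have h2 := h1.trans (by
          convert sum_base_s κ θ c h3 h5 (o' n) (∑ q : PF n, bit 2 q))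
        show FFgs κ θ c [] n * (2 * (Fintype.card (Pat (L15 n)) : ℝ) / 2 ^ 2) ≤ _
        rw [card_pair2 hn0 h3 h5, mul_comm]
        refine le_of_eq ?_
        convert h2.symm
      · rw [card_ok2' hn0 h3 h5]
        show _ ≤ (2 * (Fintype.card (Pat (L15 n)) : ℝ) / 2 ^ 2)
        rw [card_pair2 hn0 h3 h5]

theorem avg_le_s (κ θ c : ZMod 2) (n : ℕ) (B : ℝ)
    (hB : avg (fun u : PF n → ZMod 2 => (2 : ℝ) ^ ck (AA n + Matrix.diagonal u)) ≤ B) :
    (∑ u : Option (PF n) → ZMod 2, (2 : ℝ) ^ ck (AAgs κ θ c n u)) /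
      Fintype.card (Option (PF n) → ZMod 2) ≤ 4 * B := by
  have h1 := avg_le κ θ n B hB
  unfold avg at h1
  rw [Fintype.card_fun, ZMod.card]
  push_cast
  rw [div_le_iff₀ (by positivity)] at h1 ⊢
  have h2 : ∑ u : Option (PF n) → ZMod 2, (2 : ℝ) ^ ck (AAgs κ θ c n u) ≤
      2 * ∑ u : Option (PF n) → ZMod 2, (2 : ℝ) ^ ck (AAg κ θ n + Matrix.diagonal u) := by
    rw [mul_sum]
    refine sum_le_sum fun u _ => ?_
    have h4 : ck (AAgs κ θ c n u) ≤ ck (AAg κ θ n + Matrix.diagonal u) + 1 := ck_ext_le _ _ _ _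
    calc (2 : ℝ) ^ ck (AAgs κ θ c n u) ≤ 2 ^ (ck (AAg κ θ n + Matrix.diagonal u) + 1) :=
          pow_le_pow_right₀ (by norm_num) h4
      _ = _ := by rw [pow_succ]; ring
  linarith

/-! ### Case III -/

theorem AAgs_zero (κ : ZMod 2) (n : ℕ) : AAgs κ 0 1 n = AA3s κ n := by
  funext u
  unfold AAgs AA3s
  rw [AAg_zero]

theorem FF3s_eq (κ : ZMod 2) : FF3s κ = FFgs κ 0 1 := by
  funext ε n
  unfold FF3s FFgs
  simp only [prob2_eq5, AAgs_zero, extv_zero]

theorem MM3s_eq (κ : ZMod 2) (n : ℕ) (w : Pat n) (ρ : ZMod 2) : MM3s κ n w ρ =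
    AAgs κ 0 1 n (extv (w + fun q : PF n => bit 2 q +
      ∑ r ∈ univ.erase q, bit ((r : ℕ) : ℤ) (q : ℕ)) (ρ + ∑ q : PF n, bit 2 q)) := by
  unfold MM3s AAgs
  rw [MM3_eq]

theorem rec2_AA3s (κ : ZMod 2) (n : ℕ) (hodd : Odd n) (u : Option (PF n) → ZMod 2) :
    Rec2 (AA3s κ n u) (extv (extv (mu n) κ) 0) (extv 0 1) := by
  have hrec : Rec (AA3 κ n) (extv (mu n) κ) := rec_ext (rec_AA n hodd) _ _ _
  refine ⟨?_, ?_, ?_⟩
  · intro a b hab ha hb
    match a, b with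
    | none, _ => exact absurd ha one_ne_zero
    | some _, none => exact absurd hb one_ne_zero
    | some q, some q' =>
      have hne : q ≠ q' := fun h => hab (by rw [h])
      show (AA3 κ n + Matrix.diagonal u) q q' + (AA3 κ n + Matrix.diagonal u) q' q =
        extv (mu n) κ q * extv (mu n) κ q'
      rw [Matrix.add_apply, Matrix.add_apply, Matrix.diagonal_apply_ne _ hne,
        Matrix.diagonal_apply_ne _ hne.symm, add_zero, add_zero]
      exact hrec q q' hne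
  · intro a b ha hb
    match a, b with
    | none, none => rfl
    | none, some _ => exact absurd hb zero_ne_one
    | some _, _ => exact absurd ha zero_ne_one
  · intro a ha
    match a with
    | none => rfl
    | some _ => exact absurd ha zero_ne_one

theorem stmtS3s : StmtS3s := by
  intro hE1 hE2 hRM κ
  refine ⟨?_, fun η B hη => ?_⟩
  · have h := hyp8_gs κ 0 1 2 (Or.inr rfl) (fun m => OK2 (2 * m))
      (fun m => (m % 4 = 1 ↔ κ = 1) → Vale.Agent.P017.H185.Cond1 ((2 * m : ℕ) : ℚ) ∧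
        Vale.Agent.P017.H185.Cond2 ((2 * m : ℕ) : ℚ)) (fun m => Iff.rfl)
      (fun n q => bit 2 q + ∑ r ∈ univ.erase q, bit ((r : ℕ) : ℤ) (q : ℕ))
      (fun n hn ho h3 h5 p hp hp5 hpn hok hck hκ =>
        ⟨hE1 κ n hn ho h3 h5 p hp hp5 hpn hok hκ (by rw [MM3s_eq]; exact hck),
          hE2 κ n hn ho h3 h5 p hp hp5 hpn hok hκ (by rw [MM3s_eq]; exact hck)⟩)
    unfold S3s
    rw [FF3s_eq]
    exact h
  · obtain ⟨h, k, hk⟩ := hRM η (4 * B) hη
    refine ⟨h, k, fun ε m d hm ho hmd hok hc hB => ?_⟩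
    obtain ⟨hok3, hok5⟩ : OK2 (2 * d) := hok
    have h3 : ¬ 3 ∣ m := fun h => by
      have := h.trans hmd
      omega
    have h5 : ¬ 5 ∣ m := fun h => by
      have := h.trans hmd
      omega
    have h1 := avg_le_s κ 0 1 m B hB
    rw [AAgs_zero] at h1
    have h2 := hk ε (Option (Option (PF m))) (Option (PF m) → ZMod 2) (AA3s κ m)
      (extv (extv (mu m) κ) 0) (extv 0 1) (fun u => rec2_AA3s κ m ho u) hc h1
    show η ≤ FF3s κ ε m
    unfold FF3s avg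
    rw [if_neg (by tauto)]
    rw [Fintype.card_fun, ZMod.card] at h2
    push_cast at h2
    exact h2

/-! ### Case II -/

theorem AAgs_one (n : ℕ) : AAgs 0 1 0 n = AA2s n := by
  funext u
  unfold AAgs AA2s
  rw [AAg_one]

theorem FF2s_eq : FF2s = FFgs 0 1 0 := by
  funext ε n
  unfold FF2s FFgs
  simp only [AAgs_one]

theorem MM2s_eq (n : ℕ) (w : Pat n) (ρ : ZMod 2) : MM2s n w ρ =
    AAgs 0 1 0 n (extv (w + fun q : PF n =>
      ∑ r ∈ univ.erase q, bit ((r : ℕ) : ℤ) (q : ℕ)) (ρ + ∑ q : PF n, bit 2 q)) := by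
  unfold MM2s AAgs
  rw [MM2_eq]

theorem rec5_AA2s (n : ℕ) (hodd : Odd n) (u : Option (PF n) → ZMod 2) :
    Rec5 (AA2s n u) (extv (extv (mu n) 0) 0) (extv 0 1) (extv (extv 0 1) 0) := by
  have hr := rec3_AA2 n hodd u
  refine ⟨?_, ?_, ?_, ?_, ?_, ?_, ?_⟩
  · intro a b hab ha hb ha' hb'
    match a, b with
    | none, _ => exact absurd ha one_ne_zero
    | some _, none => exact absurd hb one_ne_zero
    | some q, some q' => exact hr.recip q q' (fun h => hab (by rw [h])) ha' hb'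
  · intro a b ha hab
    match a, b with
    | none, _ => exact absurd ha zero_ne_one
    | some none, none => rfl
    | some (some _), _ => exact absurd ha zero_ne_one
    | some none, some b => exact hr.row none b rfl (fun h => hab (by rw [h]))
  · intro a b ha hb
    match a, b with
    | none, none => rfl
    | none, some _ => exact absurd hb zero_ne_one
    | some _, _ => exact absurd ha zero_ne_one
  · intro a b ha hb
    match a, b with
    | none, _ => exact absurd ha zero_ne_one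
    | some _, none => exact absurd hb zero_ne_one
    | some a, some b => rw [hr.one a b ha hb]
  · intro a ha
    match a with
    | none => rfl
    | some _ => exact absurd ha zero_ne_one
  · intro a ha
    match a with
    | none => exact absurd ha zero_ne_one
    | some a => exact hr.zero a ha
  · intro a ha
    match a with
    | none => rfl
    | some _ => exact absurd ha zero_ne_one

theorem stmtS2s : StmtS2s := by
  intro hE3 hE4 hRM
  refine ⟨?_, fun η B hη => ?_⟩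
  · have h := hyp8_gs 0 1 0 1 (Or.inl rfl) OK2
      (fun m => m % 4 = 1 → Vale.Agent.P017.H185.Cond1 (m : ℚ) ∧
        Vale.Agent.P017.H185.Cond2 (m : ℚ)) (fun m => by rw [one_mul])
      (fun n q => ∑ r ∈ univ.erase q, bit ((r : ℕ) : ℤ) (q : ℕ))
      (fun n hn ho h3 h5 p hp hp5 hpn hok hck hκ =>
        ⟨hE3 n hn ho h3 h5 p hp hp5 hpn (by rwa [one_mul] at hok) hκ
            (by rw [MM2s_eq]; exact hck),
          hE4 n hn ho h3 h5 p hp hp5 hpn (by rwa [one_mul] at hok) hκ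
            (by rw [MM2s_eq]; exact hck)⟩)
    unfold S2s
    rw [FF2s_eq]
    exact h
  · obtain ⟨h, k, hk⟩ := hRM η (4 * B) hη
    refine ⟨h, k, fun ε m d hm ho hmd hok hc hB => ?_⟩
    obtain ⟨hok3, hok5⟩ : OK2 d := hok
    have h3 : ¬ 3 ∣ m := fun h => by
      have := h.trans hmd
      omega
    have h5 : ¬ 5 ∣ m := fun h => by
      have := h.trans hmd
      omega
    have h1 := avg_le_s 0 1 0 m B hB
    rw [AAgs_one] at h1
    have h2 := hk ε (Option (Option (PF m))) (Option (PF m) → ZMod 2) (AA2s m)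
      (extv (extv (mu m) 0) 0) (extv 0 1) (extv (extv 0 1) 0) (fun u => rec5_AA2s m ho u) hc h1
    show η ≤ FF2s ε m
    unfold FF2s avg
    rw [if_neg (by tauto)]
    rw [Fintype.card_fun, ZMod.card] at h2
    push_cast at h2
    exact h2

end Vale.Agent.P017.R4.H224
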